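import Vale.Agent.H56.Packing.Shell

namespace Vale.Agent.Results.P209.A0000000_LargeBallsInLayers

open Vale.Agent.H56.Packing

/-- Four cases of the sufficiency in Conjecture A, in every complex dimension `n`.
(1) At most `2^n` balls: if `k ≤ 2^n`, `∑ r_i^n < R^n` and `r_i + r_j < R` for `i ≠ j`, then the
closed balls `B^{2n}(r 0), …, B^{2n}(r (k-1))` admit a symplectic embedding of their disjoint
union into the open ball `Int B^{2n}(R)`.
(2) Any number of balls, `n ≥ 1`: the same holds as soon as `∑ r_i^n < 2 (R/2)^n = R^n / 2^(n-1)`.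
(3) At most `2^n` large balls and any number of small balls, `n ≥ 1`: for every `δ > 0` there is
`ε > 0` such that the same holds for every finite family of balls with `r_i + r_j ≤ (1 - δ) R`
for `i ≠ j` and `∑ r_i^n ≤ (1 - δ) R^n` in which at most `2^n` balls have capacity larger than
`ε R`.
(4) Large balls in layers and small balls, `n ≥ 1`: for every `m` and every `δ > 0` there is
`ε > 0` such that `m` balls of capacities `a 0 ≥ a 1 ≥ … ≥ a (m-1)` with
`a 0 + a 1 + a (2^n) + a (3^n) + … ≤ (1 - δ) R` (the sum of all `a (c^n)` with `c^n < m`)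
together with any number of balls of capacities `r_i ≤ ε R` with
`∑ r_i^n ≤ (1 - δ) (R^n - ∑ a_c^n)` admit such an embedding. -/
theorem result :
    (∀ (n k : ℕ) (R : ℝ) (r : Fin k → ℝ), k ≤ 2 ^ n → 0 < R → (∀ i, 0 < r i) →
      ∑ i, r i ^ n < R ^ n → (∀ i j, i ≠ j → r i + r j < R) → HasBallPacking n k R r) ∧
    (∀ (n k : ℕ) (R : ℝ) (r : Fin k → ℝ), 0 < n → 0 < R → (∀ i, 0 < r i) →
      ∑ i, r i ^ n < 2 * (R / 2) ^ n → HasBallPacking n k R r) ∧
    (∀ (n : ℕ) (δ : ℝ), 0 < n → 0 < δ → ∃ ε : ℝ, 0 < ε ∧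
      ∀ (k : ℕ) (R : ℝ) (r : Fin k → ℝ), 0 < R → (∀ i, 0 < r i) →
        (∀ i j, i ≠ j → r i + r j ≤ (1 - δ) * R) → ∑ i, r i ^ n ≤ (1 - δ) * R ^ n →
        (Finset.univ.filter (fun i => ε * R < r i)).card ≤ 2 ^ n → HasBallPacking n k R r) ∧
    (∀ (n m : ℕ) (δ : ℝ), 0 < n → 0 < δ → ∃ ε : ℝ, 0 < ε ∧
      ∀ (k : ℕ) (R : ℝ) (a : Fin m → ℝ) (r : Fin k → ℝ), 0 < R → (∀ c, 0 < a c) →
        Antitone a →
        ∑ c ∈ Finset.range m, (if h : c ^ n < m then a ⟨c ^ n, h⟩ else 0) ≤ (1 - δ) * R →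
        (∀ i, 0 < r i ∧ r i ≤ ε * R) →
        ∑ i, r i ^ n ≤ (1 - δ) * (R ^ n - ∑ c, a c ^ n) →
        HasBallPacking n (m + k) R (Fin.append a r)) :=
  ⟨fun n k R r hk hR hr hvol hpair => pow_two_packing n k R r hk hR hr hvol hpair,
    fun n k R r hn hR hr hvol => sharp_volume_packing n k hn R hR r hr hvol,
    fun n δ hn hδ => pairwise_small_packing n hn δ hδ,
    fun n m δ hn hδ => shell_small_packing n m hn δ hδ⟩

end Vale.Agent.Results.P209.A0000000_LargeBallsInLayers
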