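import Vale.Agent.H56.Packing.Shell
import Vale.Agent.H56.Packing.Greedy

namespace Vale.Agent.Results.P209.A000000_TwoBallVolumeAndLayers

open Vale.Agent.H56.Packing

/-- Cases of the sufficiency in Conjecture A, collected in one statement.  In each of them the
closed balls `B^{2n}(r 0), …, B^{2n}(r (k-1))` admit a symplectic embedding of their disjoint union
into the open ball `Int B^{2n}(R)`.
(1) At most `2^n` balls: `k ≤ 2^n`, all capacities smaller than `R` and `r_i + r_j < R` for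
`i ≠ j` (no volume hypothesis).
(2) Any number of balls, `n ≥ 1`: `∑ r_i^n < 2 (R/2)^n`.
(3) At most `2^n` large balls and any number of small balls, `n ≥ 1`: for every `δ > 0` there is
`ε > 0` such that `r_i + r_j ≤ (1 - δ) R` for `i ≠ j`, `∑ r_i^n ≤ (1 - δ) R^n` and at most `2^n`
capacities larger than `ε R` suffice.
(4) Greedy layers: pairwise disjoint intervals `[T c, T c + g c)`, `c < m`, with `g c > 0` and
`T c + g c < R`, natural numbers `J c` with `J c * g c ≤ T c`, every ball assigned to a layer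
`ℓ i` with `r i ≤ g (ℓ i)`, at most `(J c + 1)^n - (J c)^n` balls in the layer `c`.
(5) Dyadic layers: every ball has a level `ℓ i ≥ 0` with `r i ≤ R / 2^(ℓ i + 1)`, and at most
`(2^(c+1) - 1)^n - (2^(c+1) - 2)^n` balls have level `c`.
(6) `n = 3`, nine balls: `r_i + r_j < R` for `i ≠ j` and all but one capacity smaller than
`3R/7`.  (7) `n = 3`, ten balls: the same with `2R/5`.  (8) `n = 3`, eleven balls: the same with
`3R/8`. -/
theorem result :
    (∀ (n k : ℕ) (R : ℝ) (r : Fin k → ℝ), k ≤ 2 ^ n → 0 < R → (∀ i, 0 < r i ∧ r i < R) →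
      (∀ i j, i ≠ j → r i + r j < R) → HasBallPacking n k R r) ∧
    (∀ (n k : ℕ) (R : ℝ) (r : Fin k → ℝ), 0 < n → 0 < R → (∀ i, 0 < r i) →
      ∑ i, r i ^ n < 2 * (R / 2) ^ n → HasBallPacking n k R r) ∧
    (∀ (n : ℕ) (δ : ℝ), 0 < n → 0 < δ → ∃ ε : ℝ, 0 < ε ∧
      ∀ (k : ℕ) (R : ℝ) (r : Fin k → ℝ), 0 < R → (∀ i, 0 < r i) →
        (∀ i j, i ≠ j → r i + r j ≤ (1 - δ) * R) → ∑ i, r i ^ n ≤ (1 - δ) * R ^ n →
        (Finset.univ.filter (fun i => ε * R < r i)).card ≤ 2 ^ n → HasBallPacking n k R r) ∧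
    (∀ (n m k : ℕ) (R : ℝ) (g T : Fin m → ℝ) (J : Fin m → ℕ) (r : Fin k → ℝ)
      (ℓ : Fin k → Fin m),
      (∀ c, 0 < g c ∧ (J c : ℝ) * g c ≤ T c ∧ T c + g c < R) →
      (∀ c c', c ≠ c' → T c + g c ≤ T c' ∨ T c' + g c' ≤ T c) →
      (∀ i, 0 < r i ∧ r i ≤ g (ℓ i)) →
      (∀ c, (Finset.univ.filter (fun i => ℓ i = c)).card + J c ^ n ≤ (J c + 1) ^ n) →
      HasBallPacking n k R r) ∧
    (∀ (n k : ℕ) (R : ℝ) (r : Fin k → ℝ) (ℓ : Fin k → ℕ), 0 < R →
      (∀ i, 0 < r i ∧ r i ≤ R / 2 ^ (ℓ i + 1)) →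
      (∀ c, (Finset.univ.filter (fun i => ℓ i = c)).card + (2 ^ (c + 1) - 2) ^ n ≤
        (2 ^ (c + 1) - 1) ^ n) →
      HasBallPacking n k R r) ∧
    (∀ (R : ℝ) (r : Fin 9 → ℝ), (∀ i, 0 < r i) → (∀ i j, i ≠ j → r i + r j < R) →
      ∀ i0, (∀ i, i ≠ i0 → 7 * r i < 3 * R) → HasBallPacking 3 9 R r) ∧
    (∀ (R : ℝ) (r : Fin 10 → ℝ), (∀ i, 0 < r i) → (∀ i j, i ≠ j → r i + r j < R) →
      ∀ i0, (∀ i, i ≠ i0 → 5 * r i < 2 * R) → HasBallPacking 3 10 R r) ∧
    (∀ (R : ℝ) (r : Fin 11 → ℝ), (∀ i, 0 < r i) → (∀ i j, i ≠ j → r i + r j < R) →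
      ∀ i0, (∀ i, i ≠ i0 → 8 * r i < 3 * R) → HasBallPacking 3 11 R r) :=
  ⟨fun n k R r hk hR hr hpair => pow_two_pair_packing n k R r hk hR hr hpair,
    fun n k R r hn hR hr hvol => sharp_volume_packing n k hn R hR r hr hvol,
    fun n δ hn hδ => pairwise_small_packing n hn δ hδ,
    fun n _ k R g T J r ℓ hg hdis hr hcount =>
      greedy_layer_packing n k R g T J r ℓ hg hdis hr hcount,
    fun n k R r ℓ hR hr hcount => dyadic_layer_packing n k R r ℓ hR hr hcount,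
    fun R r hr hpair i0 h => nine_packing R r hr hpair i0 h,
    fun R r hr hpair i0 h => ten_packing R r hr hpair i0 h,
    fun R r hr hpair i0 h => eleven_packing R r hr hpair i0 h⟩

end Vale.Agent.Results.P209.A000000_TwoBallVolumeAndLayers
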