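import Vale.Agent.H56.Packing.Dom

namespace Vale.Agent.Results.P209.A00000_NineToElevenBalls

open Vale.Agent.H56.Packing

/-- Cases of the sufficiency in Conjecture A, several of them with more than `2^n` balls.
(1) At most `2^n` balls, every `n`: if `k ≤ 2^n`, all capacities are smaller than `R` and
`r_i + r_j < R` for `i ≠ j`, then the closed balls `B^{2n}(r 0), …, B^{2n}(r (k-1))` admit a
symplectic embedding of their disjoint union into the open ball `Int B^{2n}(R)` (no volume
hypothesis: for `k ≤ 2^n` the two-ball condition implies `∑ r_i^n < R^n`).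
(2) A dominant ball, every `n`: if one of at most `(j+1)^n - j^n + 1` balls has capacity at least
`j R / (j+1)`, all capacities are smaller than `R` and `r_i + r_i' < R` for `i ≠ i'`, the same
holds (the two-ball condition alone suffices).
(3) `n = 3`, nine balls: the same holds if `r_i + r_j < R` for `i ≠ j` and all but one of the
nine capacities are smaller than `3R/7`.
(4) `n = 3`, ten balls: the same with `2R/5` in place of `3R/7`.
(5) `n = 3`, eleven balls: the same with `3R/8`.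
(6) `n = 3`: eleven balls of capacities smaller than `2R/5` admit such an embedding.
(7) The general criterion behind (3)-(6), every `n` and `k`: let `A i` be integer matrices with
invertible determinant and `t i ∈ ℝ^n`; if the open simplices
`t i + A i {x | x_l > 0, ∑ x_l < s i}` lie in the open simplex `{y | y_j > 0, ∑ y_j < R}` and are
pairwise disjoint, then balls of capacities `r i < s i` admit such an embedding. -/
theorem result :
    (∀ (n k : ℕ) (R : ℝ) (r : Fin k → ℝ), k ≤ 2 ^ n → 0 < R → (∀ i, 0 < r i ∧ r i < R) →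
      (∀ i j, i ≠ j → r i + r j < R) → HasBallPacking n k R r) ∧
    (∀ (n j k : ℕ) (R : ℝ) (r : Fin (k + 1) → ℝ), k + j ^ n ≤ (j + 1) ^ n →
      (∀ i, 0 < r i ∧ r i < R) → (∀ i i', i ≠ i' → r i + r i' < R) →
      ∀ i0, (j : ℝ) * R ≤ ((j : ℝ) + 1) * r i0 → HasBallPacking n (k + 1) R r) ∧
    (∀ (R : ℝ) (r : Fin 9 → ℝ), (∀ i, 0 < r i) → (∀ i j, i ≠ j → r i + r j < R) →
      ∀ i0, (∀ i, i ≠ i0 → 7 * r i < 3 * R) → HasBallPacking 3 9 R r) ∧
    (∀ (R : ℝ) (r : Fin 10 → ℝ), (∀ i, 0 < r i) → (∀ i j, i ≠ j → r i + r j < R) →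
      ∀ i0, (∀ i, i ≠ i0 → 5 * r i < 2 * R) → HasBallPacking 3 10 R r) ∧
    (∀ (R : ℝ) (r : Fin 11 → ℝ), (∀ i, 0 < r i) → (∀ i j, i ≠ j → r i + r j < R) →
      ∀ i0, (∀ i, i ≠ i0 → 8 * r i < 3 * R) → HasBallPacking 3 11 R r) ∧
    (∀ (R : ℝ) (r : Fin 11 → ℝ), (∀ i, 0 < r i ∧ 5 * r i < 2 * R) → HasBallPacking 3 11 R r) ∧
    (∀ (n k : ℕ) (R : ℝ) (r s : Fin k → ℝ) (A : Fin k → Matrix (Fin n) (Fin n) ℤ)
      (t : Fin k → Fin n → ℝ), (∀ i, IsUnit (A i).det) → (∀ i, 0 < r i ∧ r i < s i) →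
      (∀ i (x : Fin n → ℝ), (∀ l, 0 < x l) → ∑ l, x l < s i →
        (∀ j, 0 < t i j + ∑ l, (A i j l : ℝ) * x l) ∧
          ∑ j, (t i j + ∑ l, (A i j l : ℝ) * x l) < R) →
      (∀ i i', i ≠ i' → ∀ x x' : Fin n → ℝ, (∀ l, 0 < x l) → ∑ l, x l < s i →
        (∀ l, 0 < x' l) → ∑ l, x' l < s i' →
        ∃ j, t i j + ∑ l, (A i j l : ℝ) * x l ≠ t i' j + ∑ l, (A i' j l : ℝ) * x' l) →
      HasBallPacking n k R r) :=
  ⟨fun n k R r hk hR hr hpair => pow_two_pair_packing n k R r hk hR hr hpair,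
    fun n j k R r hk hr hpair i0 hdom => dominant_ball_packing n j k R r hk hr hpair i0 hdom,
    fun R r hr hpair i0 h => nine_packing R r hr hpair i0 h,
    fun R r hr hpair i0 h => ten_packing R r hr hpair i0 h,
    fun R r hr hpair i0 h => eleven_packing R r hr hpair i0 h,
    fun R r hr => eleven_equal_packing R r hr,
    fun n k R r s A t hA hr hin hdis => toric_packing n k R r s A t hA hr hin hdis⟩

end Vale.Agent.Results.P209.A00000_NineToElevenBalls
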