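import Vale.Agent.H56.Packing.Grid

namespace Vale.Agent.Results.P209.A0000_ExactGridAndLayers

open Vale.Agent.H56.Packing

/-- Four exact cases of the sufficiency in Conjecture A, in every complex dimension `n`.
(1) At most `2^n` balls: if `k ≤ 2^n`, `∑ r_i^n < R^n` and `r_i + r_j < R` for `i ≠ j`, then the
closed balls `B^{2n}(r 0), …, B^{2n}(r (k-1))` admit a symplectic embedding of their disjoint
union into the open ball `Int B^{2n}(R)`.
(2) Any number of balls, `n ≥ 1`: the same holds as soon as `∑ r_i^n < 2 (R/2)^n = R^n / 2^(n-1)`.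
(3) Sorted layers, `n ≥ 1`: the same holds for capacities `r 0 ≥ r 1 ≥ … ≥ r (k-1)` with
`r 0 + r 1 + r (2^n) + r (3^n) + … < R` (the sum of all `r (c^n)` with `c^n < k`).
(4) Capacities on a grid, `n ≥ 1`: let `g > 0`, `L * g < R`, and let `J 0 ≥ … ≥ J (m-1)` be
natural numbers with `J 0 + J 1 + J (2^n) + J (3^n) + … ≤ L` (the sum of all `J (c^n)` with
`c^n < m`) and `N + ∑ J_c^n ≤ L^n`. Then `m` balls of capacities `a c ≤ J c * g` together with
`N` balls of capacities `r_i ≤ g` admit such an embedding. -/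
theorem result :
    (∀ (n k : ℕ) (R : ℝ) (r : Fin k → ℝ), k ≤ 2 ^ n → 0 < R → (∀ i, 0 < r i) →
      ∑ i, r i ^ n < R ^ n → (∀ i j, i ≠ j → r i + r j < R) → HasBallPacking n k R r) ∧
    (∀ (n k : ℕ) (R : ℝ) (r : Fin k → ℝ), 0 < n → 0 < R → (∀ i, 0 < r i) →
      ∑ i, r i ^ n < 2 * (R / 2) ^ n → HasBallPacking n k R r) ∧
    (∀ (n k : ℕ) (R : ℝ) (r : Fin k → ℝ), 0 < n → Antitone r → (∀ i, 0 < r i) →
      ∑ c ∈ Finset.range k, (if h : c ^ n < k then r ⟨c ^ n, h⟩ else 0) < R →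
      HasBallPacking n k R r) ∧
    (∀ (n m L N : ℕ) (R g : ℝ) (J : Fin m → ℕ) (a : Fin m → ℝ) (r : Fin N → ℝ), 0 < n → 0 < g →
      (L : ℝ) * g < R → Antitone J →
      ∑ c ∈ Finset.range m, (if h : c ^ n < m then J ⟨c ^ n, h⟩ else 0) ≤ L →
      N + ∑ c, J c ^ n ≤ L ^ n → (∀ c, 0 < a c ∧ a c ≤ J c * g) → (∀ i, 0 < r i ∧ r i ≤ g) →
      HasBallPacking n (m + N) R (Fin.append a r)) :=
  ⟨fun n k R r hk hR hr hvol hpair => pow_two_packing n k R r hk hR hr hvol hpair,
    fun n k R r hn hR hr hvol => sharp_volume_packing n k hn R hR r hr hvol,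
    fun n k R r hn hanti hr hsum => sorted_packing n k hn R r hanti hr hsum,
    fun n m L N R g J a r hn hg hLg hJ hshell hN ha hr =>
      grid_packing n m L N hn R g hg hLg J hJ hshell hN a ha r hr⟩

end Vale.Agent.Results.P209.A0000_ExactGridAndLayers
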