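import Vale.Agent.H56.Packing.Block

namespace Vale.Agent.Results.P209.A_AtMostTwoPowN

open Vale.Agent.H56.Packing

/-- Sufficiency in Siegel-Yao Conjecture A for at most `2^n` balls, in every complex dimension
`n`: if `k ≤ 2^n`, all capacities are positive, `∑ rᵢ^n < R^n` and `rᵢ + rⱼ < R` for `i ≠ j`,
then the closed balls `B^{2n}(r₀), …, B^{2n}(r_{k-1})` admit a symplectic embedding of their
disjoint union into the open ball `Int B^{2n}(R)`. The embeddings are explicit (toric). -/
theorem result (n k : ℕ) (R : ℝ) (r : Fin k → ℝ) (hk : k ≤ 2 ^ n) (hR : 0 < R)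
    (hr : ∀ i, 0 < r i) (hvol : ∑ i, r i ^ n < R ^ n) (hpair : ∀ i j, i ≠ j → r i + r j < R) :
    HasBallPacking n k R r :=
  pow_two_packing n k R r hk hR hr hvol hpair

end Vale.Agent.Results.P209.A_AtMostTwoPowN
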